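import Vale.Agent.P347.Sep.Coord

/-!
# P347: product laws

Total variation adds up over independent coordinates, and the Gibbs law of a separable potential
is the product of its one-dimensional laws.
-/

namespace Vale.Agent.P347.Sep

open MeasureTheory ProbabilityTheory Set Real
open scoped NNReal ENNReal

noncomputable section

theorem abs_integral_sub_le {α : Type*} [MeasurableSpace α] {μ ν : Measure α}
    [IsProbabilityMeasure μ] [IsProbabilityMeasure ν] {e : ℝ}
    (h : ∀ S, MeasurableSet S → |μ.real S - ν.real S| ≤ e) {f : α → ℝ} (hf : Measurable f)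
    (h0 : ∀ a, 0 ≤ f a) (h1 : ∀ a, f a ≤ 1) : |∫ a, f a ∂μ - ∫ a, f a ∂ν| ≤ e := by
  have hint : ∀ (m : Measure α) [IsProbabilityMeasure m], Integrable f m := fun m _ =>
    (integrable_const (1 : ℝ)).mono' hf.aestronglyMeasurable
      (ae_of_all _ fun a => by rw [norm_eq_abs, abs_of_nonneg (h0 a)]; exact h1 a)
  rw [(hint μ).integral_eq_integral_Ioc_meas_le (M := 1) (ae_of_all _ h0) (ae_of_all _ h1),
    (hint ν).integral_eq_integral_Ioc_meas_le (M := 1) (ae_of_all _ h0) (ae_of_all _ h1)]
  have hi : ∀ (m : Measure α) [IsProbabilityMeasure m],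
      IntegrableOn (fun t => m.real {a | t ≤ f a}) (Ioc (0 : ℝ) 1) := fun m _ => by
    have hanti : Antitone fun t => m.real {a | t ≤ f a} := fun s t hst =>
      measureReal_mono fun a (ha : t ≤ f a) => hst.trans ha
    exact ((hanti.antitoneOn _).integrableOn_isCompact isCompact_Icc).mono_set Ioc_subset_Icc_self
  rw [← integral_sub (hi μ) (hi ν), ← norm_eq_abs]
  refine (norm_setIntegral_le_of_norm_le_const (C := e) measure_Ioc_lt_top fun t _ => ?_).trans ?_
  · exact h _ (measurableSet_le measurable_const hf)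
  · simp [Measure.real]

theorem real_prod_eq {α β : Type*} [MeasurableSpace α] [MeasurableSpace β] (μ : Measure α)
    (ν : Measure β) [IsProbabilityMeasure μ] [IsProbabilityMeasure ν] {B : Set (α × β)}
    (hB : MeasurableSet B) : (μ.prod ν).real B = ∫ a, ν.real (Prod.mk a ⁻¹' B) ∂μ := by
  rw [measureReal_def, Measure.prod_apply hB,
    ← integral_toReal (measurable_measure_prodMk_left hB).aemeasurable
      (ae_of_all _ fun a => measure_lt_top _ _)]
  rfl

/-- Total variation adds over a product. -/
theorem pi_close : ∀ (d : ℕ) (μ ν : Fin d → Measure ℝ) (e : ℝ),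
    (∀ i, IsProbabilityMeasure (μ i)) → (∀ i, IsProbabilityMeasure (ν i)) →
    (∀ i S, MeasurableSet S → |(μ i).real S - (ν i).real S| ≤ e) →
    ∀ B, MeasurableSet B → |(Measure.pi μ).real B - (Measure.pi ν).real B| ≤ d * e := by
  intro d
  induction d with
  | zero =>
    intro μ ν e _ _ _ B _
    rw [Measure.pi_of_empty μ, Measure.pi_of_empty ν]
    simp
  | succ d ih =>
    intro μ ν e hμ hν h B hB
    set E := MeasurableEquiv.piFinSuccAbove (fun _ : Fin (d + 1) => ℝ) 0
    set B' := E.symm ⁻¹' B
    have hB' : MeasurableSet B' := E.symm.measurable hB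
    have hpre : E ⁻¹' B' = B := by ext x; simp [B']
    rw [← hpre, (measurePreserving_piFinSuccAbove μ 0).measureReal_preimage hB'.nullMeasurableSet,
      (measurePreserving_piFinSuccAbove ν 0).measureReal_preimage hB'.nullMeasurableSet,
      real_prod_eq _ _ hB', real_prod_eq _ _ hB']
    set μ' := Measure.pi fun j => μ ((0 : Fin (d + 1)).succAbove j)
    set ν' := Measure.pi fun j => ν ((0 : Fin (d + 1)).succAbove j)
    have hm : ∀ (m : Measure (Fin d → ℝ)) [IsProbabilityMeasure m],
        Measurable fun a => m.real (Prod.mk a ⁻¹' B') := fun m _ =>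
      (measurable_measure_prodMk_left hB').ennreal_toReal
    have hint : ∀ (m : Measure (Fin d → ℝ)) [IsProbabilityMeasure m],
        Integrable (fun a => m.real (Prod.mk a ⁻¹' B')) (μ 0) := fun m _ =>
      (integrable_const (1 : ℝ)).mono' (hm m).aestronglyMeasurable (ae_of_all _ fun a => by
        rw [norm_eq_abs, abs_of_nonneg measureReal_nonneg]; exact measureReal_le_one)
    refine (abs_sub_le _ (∫ a, ν'.real (Prod.mk a ⁻¹' B') ∂μ 0) _).trans ?_
    have a1 : |∫ a, μ'.real (Prod.mk a ⁻¹' B') ∂μ 0 - ∫ a, ν'.real (Prod.mk a ⁻¹' B') ∂μ 0|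
        ≤ d * e := by
      rw [← integral_sub (hint μ') (hint ν'), ← norm_eq_abs]
      refine (norm_integral_le_of_norm_le_const (C := (d : ℝ) * e) (ae_of_all _ fun a => ?_)).trans
        (by simp)
      exact ih _ _ e (fun j => hμ _) (fun j => hν _) (fun j => h _) _
        (measurable_prodMk_left hB')
    have a2 := abs_integral_sub_le (h 0) (hm ν') (fun a => measureReal_nonneg)
      fun a => measureReal_le_one
    push_cast
    linarith

variable {v : ℝ → ℝ}

/-- The one-dimensional Gibbs law. -/
def gibbs (v : ℝ → ℝ) : Measure ℝ :=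
  (ENNReal.ofReal (∫ x, exp (-v x)))⁻¹ • volume.withDensity fun x => ENNReal.ofReal (exp (-v x))

theorem gauss_smul (v : ℝ → ℝ) (x : ℝ) :
    gaussianPDFReal 0 1 x • exp (-hh v x) = (√(2 * π))⁻¹ * exp (-v x) := by
  simp only [gaussianPDFReal_def, NNReal.coe_one, mul_one, sub_zero, smul_eq_mul, mul_assoc,
    ← exp_add, hh]
  congr 2
  ring

theorem Pot.lower (hv : Pot v) (x : ℝ) : x ^ 2 / 2 ≤ v x := by
  have := (hv.hh_bounds x).1
  unfold hh at this
  linarith

theorem Pot.integrable_exp (hv : Pot v) : Integrable fun x => exp (-v x) := by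
  have := hv.smooth.continuous
  refine (integrable_exp_neg_mul_sq (by norm_num : (0 : ℝ) < 1 / 2)).mono' (by fun_prop)
    (ae_of_all _ fun x => ?_)
  rw [norm_eq_abs, abs_of_pos (exp_pos _)]
  exact exp_le_exp.2 (by linarith [hv.lower x])

theorem Pot.integral_pos (hv : Pot v) : 0 < ∫ x, exp (-v x) :=
  integral_exp_pos hv.integrable_exp

theorem Pot.gibbs_real (hv : Pot v) {B : Set ℝ} (hB : MeasurableSet B) :
    (gibbs v).real B = (∫ x in B, exp (-v x)) / ∫ x, exp (-v x) := by
  rw [gibbs, measureReal_def, Measure.smul_apply, withDensity_apply _ hB, smul_eq_mul,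
    ENNReal.toReal_mul, ENNReal.toReal_inv, ENNReal.toReal_ofReal hv.integral_pos.le,
    ← ofReal_integral_eq_lintegral_ofReal hv.integrable_exp.integrableOn
      (ae_of_all _ fun x => (exp_pos _).le),
    ENNReal.toReal_ofReal (setIntegral_nonneg hB fun x _ => (exp_pos _).le), div_eq_inv_mul]

theorem Pot.isProb_gibbs (hv : Pot v) : IsProbabilityMeasure (gibbs v) := by
  constructor
  rw [gibbs, Measure.smul_apply, withDensity_apply _ MeasurableSet.univ, Measure.restrict_univ,
    ← ofReal_integral_eq_lintegral_ofReal hv.integrable_exp (ae_of_all _ fun x => (exp_pos _).le),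
    smul_eq_mul]
  exact ENNReal.inv_mul_cancel (ENNReal.ofReal_pos.2 hv.integral_pos).ne' ENNReal.ofReal_ne_top

theorem Pot.gauss_ratio (hv : Pot v) {B : Set ℝ} (hB : MeasurableSet B) :
    (∫ x in B, exp (-hh v x) ∂gaussianReal 0 1) / ∫ x, exp (-hh v x) ∂gaussianReal 0 1
      = (gibbs v).real B := by
  have hc : (√(2 * π))⁻¹ ≠ 0 := by positivity
  have e1 : ∫ x, exp (-hh v x) ∂gaussianReal 0 1 = (√(2 * π))⁻¹ * ∫ x, exp (-v x) := by
    rw [integral_gaussianReal_eq_integral_smul one_ne_zero, ← integral_const_mul]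
    simp only [gauss_smul]
  have e2 : ∫ x in B, exp (-hh v x) ∂gaussianReal 0 1 = (√(2 * π))⁻¹ * ∫ x in B, exp (-v x) := by
    rw [← integral_indicator hB, integral_gaussianReal_eq_integral_smul one_ne_zero,
      ← integral_const_mul, ← integral_indicator hB]
    congr 1
    funext x
    by_cases hx : x ∈ B
    · simp only [indicator_of_mem hx, gauss_smul]
    · simp [indicator_of_notMem hx]
  rw [e1, e2, hv.gibbs_real hB, mul_div_mul_left _ _ hc]

/-- The Gibbs law of a separable potential is the product law. -/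
theorem pi_gibbs {d : ℕ} {w : Fin d → ℝ → ℝ} (hw : ∀ i, Pot (w i)) :
    Measure.pi (fun i => gibbs (w i)) =
      ((volume.withDensity fun x : Fin d → ℝ => ENNReal.ofReal (exp (-∑ i, w i (x i)))) univ)⁻¹ •
        volume.withDensity fun x : Fin d → ℝ => ENNReal.ofReal (exp (-∑ i, w i (x i))) := by
  have : ∀ i, IsProbabilityMeasure (gibbs (w i)) := fun i => (hw i).isProb_gibbs
  have hbox : ∀ s : Fin d → Set ℝ, (∀ i, MeasurableSet (s i)) →
      (volume.withDensity fun x : Fin d → ℝ => ENNReal.ofReal (exp (-∑ i, w i (x i))))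
        (univ.pi s) = ENNReal.ofReal (∏ i, ∫ x in s i, exp (-w i x)) := by
    intro s hs
    have hint : Integrable fun x : Fin d → ℝ => ∏ i, (s i).indicator (fun t => exp (-w i t)) (x i) :=
      Integrable.fintype_prod fun i => (hw i).integrable_exp.indicator (hs i)
    have hset : ∀ x : Fin d → ℝ,
        (univ.pi s).indicator (fun x => ENNReal.ofReal (exp (-∑ i, w i (x i)))) x
          = ENNReal.ofReal (∏ i, (s i).indicator (fun t => exp (-w i t)) (x i)) := by
      intro x
      by_cases hx : x ∈ univ.pi s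
      · rw [indicator_of_mem hx, ← Finset.sum_neg_distrib, exp_sum]
        congr 1
        exact Finset.prod_congr rfl fun i _ => by simp [hx i trivial]
      · rw [indicator_of_notMem hx]
        obtain ⟨i, hi⟩ : ∃ i, x i ∉ s i := by simpa [mem_univ_pi] using hx
        rw [Finset.prod_eq_zero (Finset.mem_univ i) (indicator_of_notMem hi _), ENNReal.ofReal_zero]
    rw [withDensity_apply _ (MeasurableSet.univ_pi hs),
      ← lintegral_indicator (MeasurableSet.univ_pi hs), lintegral_congr hset,
      ← ofReal_integral_eq_lintegral_ofReal hint (ae_of_all _ fun x => Finset.prod_nonneg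
        fun i _ => indicator_nonneg (fun t _ => (exp_pos _).le) _),
      integral_fintype_prod_volume_eq_prod (fun i t => (s i).indicator (fun t => exp (-w i t)) t)]
    simp only [integral_indicator (hs _)]
  have huniv : (volume.withDensity fun x : Fin d → ℝ => ENNReal.ofReal (exp (-∑ i, w i (x i))))
      univ = ENNReal.ofReal (∏ i, ∫ x, exp (-w i x)) := by
    rw [← pi_univ univ, hbox _ fun _ => MeasurableSet.univ]
    simp
  refine Measure.pi_eq fun s hs => ?_
  rw [Measure.smul_apply, huniv, hbox s hs, smul_eq_mul]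
  simp only [gibbs, Measure.smul_apply, withDensity_apply _ (hs _), smul_eq_mul]
  simp only [← ofReal_integral_eq_lintegral_ofReal (hw _).integrable_exp.integrableOn
    (ae_of_all _ fun x => (exp_pos _).le)]
  rw [ENNReal.ofReal_prod_of_nonneg fun i _ => (hw i).integral_pos.le,
    ENNReal.ofReal_prod_of_nonneg fun i _ =>
      setIntegral_nonneg (hs i) fun x _ => (exp_pos _).le,
    Finset.prod_mul_distrib, ENNReal.prod_inv_distrib]
  exact fun i _ j _ _ => .inl (ENNReal.ofReal_pos.2 (hw i).integral_pos).ne'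

end

end Vale.Agent.P347.Sep
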