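import Mathlib

/-!
# P347: exact rejection sampling of one coordinate from derivative evaluations

A Gaussian proposal is killed by a Poisson number of thinning trials; the accepted law has
density `exp (-h)` up to the truncation of the Poisson number, `h x = v x - x ^ 2 / 2`.
-/

namespace Vale.Agent.P347.Sep

open MeasureTheory ProbabilityTheory Set Real
open scoped NNReal ENNReal

noncomputable section

/-- The uniform law on the unit interval. -/
def unif : Measure ℝ := volume.restrict (Icc (0 : ℝ) 1)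

instance instProbUnif : IsProbabilityMeasure unif :=
  ⟨by simp [unif]⟩

/-- The seed of one trial: proposal, number of thinning steps, thinning seeds. -/
abbrev Trial (J : ℕ) := ℝ × ℕ × (Fin J → ℝ × ℝ)

/-- The law of the seed of one trial. -/
def trialLaw (J : ℕ) (L : ℝ≥0) : Measure (Trial J) :=
  (gaussianReal 0 1).prod ((poissonMeasure L).prod (Measure.pi fun _ => unif.prod unif))

instance instProbTrialLaw (J : ℕ) (L : ℝ≥0) : IsProbabilityMeasure (trialLaw J L) := by
  unfold trialLaw; infer_instance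

/-- The points queried by a trial. -/
def pts {J : ℕ} (s : Trial J) (j : Fin J) : ℝ := (s.2.2 j).1 * s.1

/-- A trial accepts, given the derivatives `G` at its points. -/
def Acc {J : ℕ} (L : ℝ) (p : Trial J × (Fin J → ℝ)) : Prop :=
  p.1.1 ^ 2 ≤ L ∧ p.1.2.1 ≤ J ∧
    ∀ j : Fin J, (j : ℕ) < p.1.2.1 → (p.2 j - pts p.1 j) * p.1.1 ≤ (p.1.2.2 j).2 * L

/-- The first accepted proposal. -/
def pick {J : ℕ} (L : ℝ) : (K : ℕ) → (Fin K → Trial J × (Fin J → ℝ)) → ℝ
  | 0, _ => 0
  | K + 1, s =>
    haveI := Classical.dec (Acc L (s 0))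
    if Acc L (s 0) then (s 0).1.1 else pick L K fun k => s k.succ

theorem measurableSet_acc {J : ℕ} (L : ℝ) :
    MeasurableSet {p : Trial J × (Fin J → ℝ) | Acc L p} := by
  have hn : Measurable fun p : Trial J × (Fin J → ℝ) => p.1.2.1 := by fun_prop
  have h : {p : Trial J × (Fin J → ℝ) | Acc L p} = {p | p.1.1 ^ 2 ≤ L} ∩ ({p | p.1.2.1 ≤ J} ∩
      ⋂ j : Fin J, ({p | p.1.2.1 ≤ (j : ℕ)} ∪
        {p | (p.2 j - pts p.1 j) * p.1.1 ≤ (p.1.2.2 j).2 * L})) := by
    ext p
    simp only [Acc, mem_setOf_eq, mem_inter_iff, mem_iInter, mem_union]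
    refine and_congr Iff.rfl (and_congr Iff.rfl (forall_congr' fun j => ?_))
    constructor
    · intro h
      rcases le_or_gt p.1.2.1 (j : ℕ) with h' | h'
      · exact .inl h'
      · exact .inr (h h')
    · rintro (h | h) h'
      · omega
      · exact h
  rw [h]
  refine (measurableSet_le (by fun_prop) measurable_const).inter
    ((measurableSet_le hn measurable_const).inter (MeasurableSet.iInter fun j => ?_))
  refine (measurableSet_le hn measurable_const).union (measurableSet_le ?_ (by fun_prop))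
  unfold pts
  fun_prop

theorem measurable_pick {J : ℕ} (L : ℝ) : ∀ K, Measurable (pick (J := J) L K)
  | 0 => measurable_const
  | K + 1 => Measurable.ite ((measurableSet_acc L).preimage (measurable_pi_apply 0))
      (by fun_prop) ((measurable_pick L K).comp (by fun_prop))

/-- The derivatives seen by a trial. -/
def see {J : ℕ} (g : ℝ → ℝ) (s : Trial J) : Trial J × (Fin J → ℝ) := (s, fun j => g (pts s j))

theorem measurable_see {J : ℕ} {g : ℝ → ℝ} (hg : Measurable g) :
    Measurable (see (J := J) g) := by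
  unfold see pts
  fun_prop

/-- The accepting seeds. -/
def accSet {J : ℕ} (L : ℝ≥0) (g : ℝ → ℝ) : Set (Trial J) := {s | Acc (L : ℝ) (see g s)}

/-- The sampler for one coordinate. -/
def run {J : ℕ} (L : ℝ≥0) (g : ℝ → ℝ) (K : ℕ) (s : Fin K → Trial J) : ℝ :=
  pick (L : ℝ) K fun k => see g (s k)

theorem measurable_run {J : ℕ} (L : ℝ≥0) {g : ℝ → ℝ} (hg : Measurable g) (K : ℕ) :
    Measurable (run (J := J) L g K) :=
  (measurable_pick _ K).comp (measurable_pi_lambda _ fun k =>
    (measurable_see hg).comp (measurable_pi_apply k))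

theorem abs_run_sub_le {J : ℕ} (L : ℝ≥0) {g : ℝ → ℝ} (hg : Measurable g)
    (hp : 0 < (trialLaw J L).real (accSet L g)) {B : Set ℝ} (hB : MeasurableSet B) :
    ∀ K, |(Measure.pi fun _ : Fin K => trialLaw J L).real (run L g K ⁻¹' B) -
        (trialLaw J L).real (accSet L g ∩ {s | s.1 ∈ B}) / (trialLaw J L).real (accSet L g)|
      ≤ (1 - (trialLaw J L).real (accSet L g)) ^ K := by
  set P := trialLaw J L
  set A : Set (Trial J) := accSet L g
  have hA : MeasurableSet A := (measurableSet_acc _).preimage (measurable_see hg)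
  set ν := P.real (A ∩ {s | s.1 ∈ B})
  have hνp : ν ≤ P.real A := measureReal_mono inter_subset_left
  intro K
  induction K with
  | zero =>
    rw [pow_zero]
    have h1 : (Measure.pi fun _ : Fin 0 => P).real (run L g 0 ⁻¹' B) ∈ Icc (0 : ℝ) 1 :=
      ⟨measureReal_nonneg, measureReal_le_one⟩
    have h2 : ν / P.real A ∈ Icc (0 : ℝ) 1 :=
      ⟨div_nonneg measureReal_nonneg hp.le, div_le_one_of_le₀ hνp hp.le⟩
    rw [abs_le]; constructor <;> linarith [h1.1, h1.2, h2.1, h2.2]
  | succ K ih =>
    set R := (Measure.pi fun _ : Fin K => P).real (run L g K ⁻¹' B)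
    have hS : MeasurableSet (run (J := J) L g K ⁻¹' B) := measurable_run L hg K hB
    have hstep : (Measure.pi fun _ : Fin (K + 1) => P).real (run L g (K + 1) ⁻¹' B)
        = ν + (1 - P.real A) * R := by
      have hmp := measurePreserving_piFinSuccAbove (fun _ : Fin (K + 1) => P) 0
      have hpre : run L g (K + 1) ⁻¹' B = MeasurableEquiv.piFinSuccAbove (fun _ => Trial J) 0 ⁻¹'
          (((A ∩ {s | s.1 ∈ B}) ×ˢ univ) ∪ Aᶜ ×ˢ (run L g K ⁻¹' B)) := by
        ext s
        classical
        by_cases h : s 0 ∈ A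
        · simp [run, pick, A, accSet, see, Fin.tail] at h ⊢
          simp [h]
        · simp [run, pick, A, accSet, see, Fin.tail] at h ⊢
          simp [h]
      have hms : MeasurableSet
          (((A ∩ {s : Trial J | s.1 ∈ B}) ×ˢ univ) ∪ Aᶜ ×ˢ (run (J := J) L g K ⁻¹' B)) :=
        ((hA.inter (measurable_fst hB)).prod .univ).union (hA.compl.prod hS)
      have hd : Disjoint ((A ∩ {s : Trial J | s.1 ∈ B}) ×ˢ (univ : Set (Fin K → Trial J)))
          (Aᶜ ×ˢ (run (J := J) L g K ⁻¹' B)) :=
        disjoint_left.2 fun s h1 h2 => h2.1 h1.1.1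
      rw [hpre, hmp.measureReal_preimage hms.nullMeasurableSet, measureReal_union hd
        (hA.compl.prod hS), measureReal_prod_prod, measureReal_prod_prod, probReal_univ, mul_one,
        probReal_compl_eq_one_sub hA]
    have he : ν + (1 - P.real A) * R - ν / P.real A = (1 - P.real A) * (R - ν / P.real A) := by
      field_simp
      ring
    rw [hstep, he, abs_mul, abs_of_nonneg (sub_nonneg.2 measureReal_le_one), pow_succ']
    exact mul_le_mul_of_nonneg_left ih (sub_nonneg.2 measureReal_le_one)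

/-- The convex part of the potential. -/
def hh (v : ℝ → ℝ) (x : ℝ) : ℝ := v x - x ^ 2 / 2

/-- The class of one coordinate. -/
structure Pot (v : ℝ → ℝ) : Prop where
  smooth : ContDiff ℝ 2 v
  zero : v 0 = 0
  crit : deriv v 0 = 0
  curv : ∀ y, 1 ≤ deriv (deriv v) y ∧ deriv (deriv v) y ≤ 2

variable {v : ℝ → ℝ}

theorem Pot.contDiff_deriv (hv : Pot v) : ContDiff ℝ 1 (deriv v) :=
  (contDiff_succ_iff_deriv.1 (show ContDiff ℝ (1 + 1) v from hv.smooth)).2.2

theorem Pot.psi_bounds (hv : Pot v) (y : ℝ) :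
    0 ≤ (deriv v y - y) * y ∧ (deriv v y - y) * y ≤ y ^ 2 := by
  have hd : Differentiable ℝ (deriv v) := hv.contDiff_deriv.differentiable one_ne_zero
  have h1 : Monotone fun y => deriv v y - y := monotone_of_deriv_nonneg (hd.sub differentiable_id)
    fun y => by
      rw [deriv_fun_sub (hd y) differentiableAt_fun_id, deriv_id'']
      linarith [(hv.curv y).1]
  have h2 : Monotone fun y => 2 * y - deriv v y := monotone_of_deriv_nonneg
    ((differentiable_id.const_mul 2).sub hd) fun y => by
      rw [deriv_fun_sub (differentiableAt_fun_id.const_mul _) (hd y), deriv_const_mul_field,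
        deriv_id'']
      linarith [(hv.curv y).2]
  rcases le_total 0 y with h | h
  · have a := h1 h
    have b := h2 h
    simp [hv.crit] at a b
    constructor <;> nlinarith
  · have a := h1 h
    have b := h2 h
    simp [hv.crit] at a b
    constructor <;> nlinarith

theorem Pot.psi_scaled (hv : Pot v) {t : ℝ} (ht : t ∈ Icc (0 : ℝ) 1) (x : ℝ) :
    0 ≤ (deriv v (t * x) - t * x) * x ∧ (deriv v (t * x) - t * x) * x ≤ x ^ 2 := by
  rcases eq_or_lt_of_le ht.1 with h | h
  · subst h; simp [hv.crit]; positivity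
  obtain ⟨a, b⟩ := hv.psi_bounds (t * x)
  have hx2 : 0 ≤ x ^ 2 := sq_nonneg x
  constructor
  · exact nonneg_of_mul_nonneg_left (by linarith [a] : 0 ≤ (deriv v (t*x) - t*x) * x * t) h
  · have : (deriv v (t * x) - t * x) * x ≤ t * x ^ 2 := le_of_mul_le_mul_right
      (by linarith [b] : (deriv v (t*x) - t*x) * x * t ≤ t * x ^ 2 * t) h
    nlinarith [ht.2]

theorem Pot.psi_linear (hv : Pot v) {t : ℝ} (ht : t ∈ Icc (0 : ℝ) 1) (x : ℝ) :
    (deriv v (t * x) - t * x) * x ≤ t * x ^ 2 := by
  rcases eq_or_lt_of_le ht.1 with h | h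
  · subst h; simp [hv.crit]
  · exact le_of_mul_le_mul_right (by linarith [(hv.psi_bounds (t * x)).2]) h

theorem Pot.integral_psi (hv : Pot v) (x : ℝ) :
    ∫ t in (0 : ℝ)..1, (deriv v (t * x) - t * x) * x = hh v x := by
  have hcont := hv.contDiff_deriv.continuous
  rw [intervalIntegral.integral_eq_sub_of_hasDerivAt (f := fun t => hh v (t * x))]
  · simp [hh, hv.zero]
  · intro t _
    have hd : HasDerivAt (fun y => hh v y) (deriv v (t * x) - t * x) (t * x) := by
      have h1 := ((hv.smooth.differentiable two_ne_zero) (t * x)).hasDerivAt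
      exact h1.sub (by simpa using ((hasDerivAt_pow 2 (t * x)).div_const 2))
    exact hd.comp t (by simpa using (hasDerivAt_id t).mul_const x)
  · exact (by fun_prop : Continuous fun t => (deriv v (t * x) - t * x) * x).intervalIntegrable _ _

theorem Pot.hh_bounds (hv : Pot v) (x : ℝ) : 0 ≤ hh v x ∧ hh v x ≤ x ^ 2 := by
  have hcont := hv.contDiff_deriv.continuous
  rw [← hv.integral_psi x]
  have hi : IntervalIntegrable (fun t => (deriv v (t * x) - t * x) * x) volume 0 1 :=
    (by fun_prop : Continuous fun t => (deriv v (t * x) - t * x) * x).intervalIntegrable _ _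
  refine ⟨intervalIntegral.integral_nonneg zero_le_one fun t ht => (hv.psi_scaled ht x).1,
    (intervalIntegral.integral_mono_on zero_le_one hi intervalIntegrable_const
      fun t ht => (hv.psi_scaled ht x).2).trans (by simp)⟩

theorem Pot.hh_half (hv : Pot v) (x : ℝ) : hh v x ≤ x ^ 2 / 2 := by
  have hcont := hv.contDiff_deriv.continuous
  rw [← hv.integral_psi x]
  have hi : IntervalIntegrable (fun t => (deriv v (t * x) - t * x) * x) volume 0 1 :=
    (by fun_prop : Continuous fun t => (deriv v (t * x) - t * x) * x).intervalIntegrable _ _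
  refine (intervalIntegral.integral_mono_on zero_le_one hi
    ((by fun_prop : Continuous fun t : ℝ => t * x ^ 2).intervalIntegrable _ _) fun t ht => ?_).trans
    (by simp [div_eq_inv_mul])
  exact hv.psi_linear ht x

theorem Pot.continuous_hh (hv : Pot v) : Continuous (hh v) := by
  have := hv.smooth.continuous
  unfold hh
  fun_prop

/-- One thinning step survives with probability `1 - h / L`. -/
theorem Pot.slot_real (hv : Pot v) {L : ℝ} (hL : 0 < L) {x : ℝ} (hx : x ^ 2 ≤ L) :
    (unif.prod unif).real {tu | (deriv v (tu.1 * x) - tu.1 * x) * x ≤ tu.2 * L}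
      = 1 - hh v x / L := by
  have hcont := hv.contDiff_deriv.continuous
  have hm : MeasurableSet {tu : ℝ × ℝ | (deriv v (tu.1 * x) - tu.1 * x) * x ≤ tu.2 * L} :=
    measurableSet_le (by fun_prop) (by fun_prop)
  have hin : ∀ t ∈ Icc (0 : ℝ) 1, unif {u | (deriv v (t * x) - t * x) * x ≤ u * L} =
      ENNReal.ofReal (1 - (deriv v (t * x) - t * x) * x / L) := by
    intro t ht
    obtain ⟨h0, h1⟩ := hv.psi_scaled ht x
    set c := (deriv v (t * x) - t * x) * x
    have hset : {u : ℝ | c ≤ u * L} = Ici (c / L) := by ext u; simp [div_le_iff₀ hL]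
    have hcap : Ici (c / L) ∩ Icc 0 1 = Icc (c / L) 1 := by
      ext u
      simp only [mem_inter_iff, mem_Ici, mem_Icc]
      exact ⟨fun h => ⟨h.1, h.2.2⟩, fun h => ⟨h.1, (div_nonneg h0 hL.le).trans h.1, h.2⟩⟩
    rw [hset, unif, Measure.restrict_apply measurableSet_Ici, hcap, Real.volume_Icc]
  have hae : ∀ᵐ t ∂unif, t ∈ Icc (0 : ℝ) 1 := ae_restrict_mem measurableSet_Icc
  rw [measureReal_def, Measure.prod_apply hm]
  simp only [preimage_setOf_eq]
  rw [lintegral_congr_ae (hae.mono fun t ht => hin t ht)]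
  have hint : Integrable (fun t => 1 - (deriv v (t * x) - t * x) * x / L) unif :=
    (by fun_prop : Continuous fun t => 1 - (deriv v (t * x) - t * x) * x / L).integrableOn_Icc
  rw [← ofReal_integral_eq_lintegral_ofReal hint (hae.mono fun t ht => sub_nonneg.2
    ((div_le_one hL).2 ((hv.psi_scaled ht x).2.trans hx))), unif,
    integral_Icc_eq_integral_Ioc, ← intervalIntegral.integral_of_le zero_le_one,
    intervalIntegral.integral_sub intervalIntegrable_const, intervalIntegral.integral_div,
    hv.integral_psi, intervalIntegral.integral_const]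
  · have := (div_le_one hL).2 ((hv.hh_bounds x).2.trans hx)
    rw [ENNReal.toReal_ofReal] <;> simp <;> linarith
  · exact (by fun_prop : Continuous fun t => (deriv v (t * x) - t * x) * x / L).intervalIntegrable _ _

/-- The acceptance probability of a proposal. -/
def accProb (v : ℝ → ℝ) (J : ℕ) (L : ℝ≥0) (x : ℝ) : ℝ :=
  if x ^ 2 ≤ L then
    ∑ n ∈ Finset.range (J + 1), exp (-L) * L ^ n / n.factorial * (1 - hh v x / L) ^ n else 0

theorem Pot.measurable_accProb (hv : Pot v) (J : ℕ) (L : ℝ≥0) :
    Measurable (accProb v J L) := by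
  have := hv.continuous_hh
  exact Measurable.ite (measurableSet_le (by fun_prop) measurable_const) (by fun_prop)
    measurable_const

theorem Pot.accSection (hv : Pot v) {J : ℕ} {L : ℝ≥0} (hL : 0 < L) (x : ℝ) :
    ((poissonMeasure L).prod (Measure.pi fun _ => unif.prod unif))
        {r | ((x, r) : Trial J) ∈ accSet L (deriv v)} = ENNReal.ofReal (accProb v J L x) := by
  have hg : Measurable (deriv v) := hv.contDiff_deriv.continuous.measurable
  have hA : MeasurableSet (accSet (J := J) L (deriv v)) :=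
    (measurableSet_acc _).preimage (measurable_see hg)
  have hr : MeasurableSet {r | ((x, r) : Trial J) ∈ accSet L (deriv v)} :=
    measurable_prodMk_left hA
  by_cases hx : x ^ 2 ≤ L
  swap
  · have : {r | ((x, r) : Trial J) ∈ accSet L (deriv v)} = ∅ := by
      ext r; simp [accSet, Acc, see, hx]
    simp [this, accProb, hx]
  set q := 1 - hh v x / L
  have hq : 0 ≤ q := sub_nonneg.2 ((div_le_one (by exact_mod_cast hL)).2
    ((hv.hh_bounds x).2.trans hx))
  have hsec : ∀ n : ℕ, (Measure.pi fun _ : Fin J => unif.prod unif)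
      (Prod.mk n ⁻¹' {r | ((x, r) : Trial J) ∈ accSet L (deriv v)})
      = if n ≤ J then ENNReal.ofReal (q ^ n) else 0 := by
    intro n
    split_ifs with hn
    · set S := {tu : ℝ × ℝ | (deriv v (tu.1 * x) - tu.1 * x) * x ≤ tu.2 * (L : ℝ)}
      have he : Prod.mk n ⁻¹' {r | ((x, r) : Trial J) ∈ accSet L (deriv v)}
          = univ.pi fun j : Fin J => if (j : ℕ) < n then S else univ := by
        ext w
        simp only [accSet, Acc, see, pts, mem_preimage, mem_setOf_eq, mem_univ_pi, hx, hn,
          true_and]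
        refine forall_congr' fun j => ?_
        split_ifs with h <;> simp [h, S]
      rw [he, Measure.pi_pi]
      simp only [apply_ite, measure_univ, Finset.prod_ite, Finset.prod_const, one_pow, mul_one]
      rw [Fin.card_filter_val_lt, min_eq_right hn, ← ofReal_measureReal,
        hv.slot_real (by exact_mod_cast hL) hx, ENNReal.ofReal_pow hq]
    · have : Prod.mk n ⁻¹' {r | ((x, r) : Trial J) ∈ accSet L (deriv v)} = ∅ := by
        ext w; simp [accSet, Acc, see, hn]
      simp [this]
  rw [Measure.prod_apply hr, lintegral_countable', accProb, if_pos hx,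
    ENNReal.ofReal_sum_of_nonneg fun n _ => by positivity]
  rw [tsum_eq_sum (s := Finset.range (J + 1)) fun n hn => by
    rw [hsec, if_neg (by simpa [Nat.lt_succ_iff] using hn), zero_mul]]
  refine Finset.sum_congr rfl fun n hn => ?_
  rw [hsec, if_pos (Nat.lt_succ_iff.1 (Finset.mem_range.1 hn)), poissonMeasure_singleton,
    ← ENNReal.ofReal_mul (pow_nonneg hq n), mul_comm]

theorem Pot.accProb_bounds (hv : Pot v) {J : ℕ} {L : ℝ≥0} (hL : 0 < L) (hJ : 3 * (L : ℝ) ≤ J)
    (x : ℝ) : 0 ≤ accProb v J L x ∧ accProb v J L x ≤ 1 ∧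
      |accProb v J L x - exp (-hh v x)| ≤ exp (-L) + exp (-L / 4) * exp (x ^ 2 / 4) := by
  have hLr : (0 : ℝ) < L := by exact_mod_cast hL
  obtain ⟨hh0, hh1⟩ := hv.hh_bounds x
  unfold accProb
  split_ifs with hx
  · set q := 1 - hh v x / L
    have hq : 0 ≤ q := sub_nonneg.2 ((div_le_one hLr).2 (hh1.trans hx))
    have hq1 : q ≤ 1 := sub_le_self _ (div_nonneg hh0 hLr.le)
    set f := fun n : ℕ => exp (-(L : ℝ)) * (L : ℝ) ^ n / n.factorial * q ^ n
    have hser : ∀ r : ℝ, HasSum (fun n : ℕ => exp (-(L : ℝ)) * (L : ℝ) ^ n / n.factorial * r ^ n)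
        (exp (-(L : ℝ) + L * r)) := fun r => by
      have h := (NormedSpace.expSeries_div_hasSum_exp ((L : ℝ) * r)).mul_left (exp (-(L : ℝ)))
      rw [← congrFun exp_eq_exp_ℝ, ← exp_add] at h
      refine h.congr_fun fun n => ?_
      rw [mul_pow]; ring
    have hf : HasSum f (exp (-hh v x)) := by
      have := hser q
      rwa [show -(L : ℝ) + L * q = -hh v x by simp [q]; field_simp; ring] at this
    have hf0 : ∀ n, 0 ≤ f n := fun n => by positivity
    have hle : ∑ n ∈ Finset.range (J + 1), f n ≤ exp (-hh v x) :=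
      sum_le_hasSum _ (fun n _ => hf0 n) hf
    set u := fun n : ℕ => exp (-(J : ℝ)) * (exp (-(L : ℝ)) * (L : ℝ) ^ n / n.factorial * exp 1 ^ n)
    have hu : HasSum u (exp (-(J : ℝ)) * exp (-(L : ℝ) + L * exp 1)) :=
      (hser (exp 1)).mul_left _
    have htail : exp (-hh v x) - ∑ n ∈ Finset.range (J + 1), f n ≤ exp (-(L : ℝ)) := by
      have h1 : HasSum (fun n => f (n + (J + 1))) (exp (-hh v x) - ∑ n ∈ Finset.range (J + 1), f n) :=
        (hasSum_nat_add_iff' (J + 1)).2 hf
      have h2 := (hasSum_nat_add_iff' (J + 1)).2 hu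
      refine (hasSum_le (fun n => ?_) h1 h2).trans (le_trans (sub_le_self _
        (Finset.sum_nonneg fun n _ => by positivity)) ?_)
      · have hn : (1 : ℝ) ≤ exp (-(J : ℝ)) * exp 1 ^ (n + (J + 1)) := by
          rw [← exp_nat_mul, ← exp_add]
          refine one_le_exp ?_
          push_cast
          linarith [show (0 : ℝ) ≤ n from Nat.cast_nonneg n]
        have hp : q ^ (n + (J + 1)) ≤ 1 := pow_le_one₀ hq hq1
        have hw : 0 ≤ exp (-(L : ℝ)) * (L : ℝ) ^ (n + (J + 1)) / (n + (J + 1)).factorial := by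
          positivity
        calc f (n + (J + 1)) ≤ _ * 1 := mul_le_mul_of_nonneg_left hp hw
          _ ≤ _ * (exp (-(J : ℝ)) * exp 1 ^ (n + (J + 1))) := mul_le_mul_of_nonneg_left hn hw
          _ = u (n + (J + 1)) := by simp only [u]; ring
      · rw [← exp_add]
        refine exp_le_exp.2 ?_
        nlinarith [exp_one_lt_d9]
    refine ⟨Finset.sum_nonneg fun n _ => hf0 n,
      hle.trans (exp_le_one_iff.2 (by linarith)), ?_⟩
    rw [abs_le]
    have : 0 ≤ exp (-(L : ℝ) / 4) * exp (x ^ 2 / 4) := by positivity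
    constructor <;> linarith [exp_pos (-(L : ℝ))]
  · refine ⟨le_rfl, zero_le_one, ?_⟩
    rw [zero_sub, abs_neg, abs_of_pos (exp_pos _), ← exp_add]
    have h1 : exp (-hh v x) ≤ 1 := exp_le_one_iff.2 (by linarith)
    have h2 : 1 ≤ exp (-(L : ℝ) / 4 + x ^ 2 / 4) := one_le_exp (by linarith [not_le.1 hx])
    linarith [exp_pos (-(L : ℝ))]

theorem Pot.accSet_real (hv : Pot v) {J : ℕ} {L : ℝ≥0} (hL : 0 < L) (hJ : 3 * (L : ℝ) ≤ J)
    {B : Set ℝ} (hB : MeasurableSet B) :
    (trialLaw J L).real (accSet L (deriv v) ∩ {s | s.1 ∈ B})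
      = ∫ x in B, accProb v J L x ∂gaussianReal 0 1 := by
  have hg : Measurable (deriv v) := hv.contDiff_deriv.continuous.measurable
  have hm : MeasurableSet (accSet (J := J) L (deriv v) ∩ {s | s.1 ∈ B}) :=
    ((measurableSet_acc _).preimage (measurable_see hg)).inter (measurable_fst hB)
  have hsec : ∀ x, ((poissonMeasure L).prod (Measure.pi fun _ => unif.prod unif))
      (Prod.mk x ⁻¹' (accSet (J := J) L (deriv v) ∩ {s | s.1 ∈ B}))
      = B.indicator (fun x => ENNReal.ofReal (accProb v J L x)) x := fun x => by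
    by_cases hx : x ∈ B
    · rw [indicator_of_mem hx, ← hv.accSection hL x]
      congr 1
      ext r; simp [hx]
    · rw [indicator_of_notMem hx]
      convert measure_empty (μ := (poissonMeasure L).prod (Measure.pi fun _ : Fin J => unif.prod unif))
      ext r; simp [hx]
  rw [measureReal_def, trialLaw, Measure.prod_apply hm, lintegral_congr hsec,
    lintegral_indicator hB]
  rw [integral_eq_lintegral_of_nonneg_ae (ae_of_all _ fun x => (hv.accProb_bounds hL hJ x).1)
    (hv.measurable_accProb J L).aestronglyMeasurable]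

theorem integral_gauss_exp {a : ℝ} :
    ∫ x, exp (a * x ^ 2) ∂gaussianReal 0 1 = (√(2 * π))⁻¹ * √(π / (1 / 2 - a)) := by
  rw [integral_gaussianReal_eq_integral_smul one_ne_zero, ← integral_gaussian,
    ← integral_const_mul]
  congr 1
  funext x
  simp only [gaussianPDFReal_def, NNReal.coe_one, mul_one, sub_zero, smul_eq_mul, mul_assoc,
    ← exp_add]
  congr 2
  ring

/-- The law of the sampler is close to the target. -/
theorem Pot.run_close (hv : Pot v) {J K : ℕ} {L : ℝ≥0} (hL : 32 ≤ (L : ℝ))
    (hJ : 3 * (L : ℝ) ≤ J) (hK : (L : ℝ) ≤ K) {B : Set ℝ} (hB : MeasurableSet B) :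
    |(Measure.pi fun _ : Fin K => trialLaw J L).real (run L (deriv v) K ⁻¹' B) -
        (∫ x in B, exp (-hh v x) ∂gaussianReal 0 1) / ∫ x, exp (-hh v x) ∂gaussianReal 0 1|
      ≤ 13 * exp (-(L : ℝ) / 4) := by
  have hLr : (0 : ℝ) < L := by linarith
  have hL0 : 0 < L := by exact_mod_cast hLr
  set γ := gaussianReal 0 1
  set e := 3 * exp (-(L : ℝ) / 4)
  set Z := ∫ x, exp (-hh v x) ∂γ
  have hc := hv.continuous_hh
  have hib : Integrable (fun x => exp (-hh v x)) γ :=
    (integrable_const (1 : ℝ)).mono' (by fun_prop) (ae_of_all _ fun x => by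
      rw [norm_eq_abs, abs_of_pos (exp_pos _), exp_le_one_iff]
      linarith [(hv.hh_bounds x).1])
  have hia : Integrable (accProb v J L) γ :=
    (integrable_const (1 : ℝ)).mono' (hv.measurable_accProb J L).aestronglyMeasurable
      (ae_of_all _ fun x => by
        rw [norm_eq_abs, abs_of_nonneg (hv.accProb_bounds hL0 hJ x).1]
        exact (hv.accProb_bounds hL0 hJ x).2.1)
  have h4 : ∫ x, exp (x ^ 2 / 4) ∂γ ≤ 2 := by
    rw [show (fun x : ℝ => exp (x ^ 2 / 4)) = fun x => exp (1 / 4 * x ^ 2) by funext x; ring_nf,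
      integral_gauss_exp, ← sqrt_inv, ← sqrt_mul (by positivity), sqrt_le_iff]
    constructor
    · norm_num
    · field_simp; norm_num
  have hi4 : Integrable (fun x : ℝ => exp (x ^ 2 / 4)) γ := by
    refine Integrable.of_integral_ne_zero ?_
    rw [show (fun x : ℝ => exp (x ^ 2 / 4)) = fun x => exp (1 / 4 * x ^ 2) by funext x; ring_nf,
      integral_gauss_exp]
    norm_num
    positivity
  have hdiff : ∀ S : Set ℝ, |∫ x in S, accProb v J L x ∂γ - ∫ x in S, exp (-hh v x) ∂γ| ≤ e := by
    intro S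
    rw [← integral_sub hia.integrableOn hib.integrableOn]
    refine abs_integral_le_integral_abs.trans ?_
    refine (integral_mono (hia.sub hib).abs.integrableOn
      ((integrable_const _).add (hi4.const_mul _)).integrableOn
      fun x => (hv.accProb_bounds hL0 hJ x).2.2).trans ?_
    refine (setIntegral_le_integral ((integrable_const _).add (hi4.const_mul _))
      (ae_of_all _ fun x => add_nonneg (exp_pos _).le
        (mul_nonneg (exp_pos _).le (exp_pos _).le))).trans ?_
    simp only [Pi.add_apply]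
    rw [integral_add (integrable_const _) (hi4.const_mul _), integral_const, integral_const_mul,
      probReal_univ, one_smul]
    have : exp (-(L : ℝ)) ≤ exp (-(L : ℝ) / 4) := exp_le_exp.2 (by linarith)
    have := mul_le_mul_of_nonneg_left h4 (exp_pos (-(L : ℝ) / 4)).le
    linarith
  have hZ : 1 / 2 ≤ Z := by
    have h2 : ∫ x, exp (-(x ^ 2 / 2)) ∂γ ≤ Z := by
      refine integral_mono_of_nonneg (ae_of_all _ fun x => (exp_pos _).le) hib
        (ae_of_all _ fun x => exp_le_exp.2 ?_)
      have hdom := (hv.hh_bounds x)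
      have := hv.hh_half x
      linarith
    refine le_trans ?_ h2
    rw [show (fun x : ℝ => exp (-(x ^ 2 / 2))) = fun x => exp (-1 / 2 * x ^ 2) by funext x; ring_nf,
      integral_gauss_exp, ← sqrt_inv, ← sqrt_mul (by positivity)]
    refine le_sqrt_of_sq_le ?_
    field_simp
    norm_num
  set p := (trialLaw J L).real (accSet L (deriv v))
  have hp : p = ∫ x, accProb v J L x ∂γ := by
    have h := hv.accSet_real hL0 hJ MeasurableSet.univ
    simpa [Measure.restrict_univ] using h
  have hν := hv.accSet_real (J := J) hL0 hJ hB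
  set ν := (trialLaw J L).real (accSet L (deriv v) ∩ {s | s.1 ∈ B})
  set ν₀ := ∫ x in B, exp (-hh v x) ∂γ
  have he : e ≤ 1 / 4 := by
    have h1 : exp (-(L : ℝ) / 4) ≤ exp (-8) := exp_le_exp.2 (by linarith)
    have h2 : exp (-8 : ℝ) ≤ 1 / 12 := by
      rw [exp_neg, one_div]
      exact inv_anti₀ (by norm_num) ((by norm_num : (12 : ℝ) ≤ 8 ^ 2 / 2).trans
        (by linarith [quadratic_le_exp_of_nonneg (show (0 : ℝ) ≤ 8 by norm_num)]))
    linarith
  have hd1 : |ν - ν₀| ≤ e := by rw [hν]; exact hdiff B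
  have hd2 : |p - Z| ≤ e := by
    have := hdiff univ
    rw [Measure.restrict_univ] at this
    rwa [hp]
  have hpq : 1 / 4 ≤ p := by linarith [(abs_le.1 hd2).1]
  have hν0 : 0 ≤ ν := measureReal_nonneg
  have hνp : ν ≤ p := measureReal_mono inter_subset_left
  have hratio : |ν / p - ν₀ / Z| ≤ 4 * e := by
    have e1 : ν / p - ν₀ / Z = (ν - ν₀) / Z + ν / p * ((Z - p) / Z) := by field_simp; ring
    rw [e1]
    refine (abs_add_le _ _).trans ?_
    rw [abs_mul, abs_div, abs_div (Z - p), abs_of_pos (by linarith : (0 : ℝ) < Z),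
      abs_of_nonneg (div_nonneg hν0 (by linarith))]
    have a1 : |ν - ν₀| / Z ≤ 2 * e := by
      rw [div_le_iff₀ (by linarith)]; nlinarith [abs_nonneg (ν - ν₀)]
    have a2 : |Z - p| / Z ≤ 2 * e := by
      rw [abs_sub_comm, div_le_iff₀ (by linarith)]; nlinarith [abs_nonneg (p - Z)]
    have a3 : ν / p ≤ 1 := div_le_one_of_le₀ hνp (by linarith)
    nlinarith [div_nonneg (abs_nonneg (Z - p)) (by linarith : (0 : ℝ) ≤ Z),
      div_nonneg hν0 (by linarith : (0 : ℝ) ≤ p)]
  have hrun := abs_run_sub_le (J := J) L hv.contDiff_deriv.continuous.measurable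
    (show 0 < p by linarith) hB K
  have hpow : (1 - p) ^ K ≤ exp (-(L : ℝ) / 4) := by
    refine (pow_le_pow_left₀ (sub_nonneg.2 measureReal_le_one)
      (one_sub_le_exp_neg p) K).trans ?_
    rw [← exp_nat_mul]
    exact exp_le_exp.2 (by nlinarith)
  refine (abs_sub_le _ (ν / p) _).trans ?_
  linarith

end

end Vale.Agent.P347.Sep
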